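import Mathlib
import Vale.Agent.H67.Additive
import Vale.Agent.H67.LinearLB

/-!
# P249: `ε`-isometric dimension reduction in `L_p` with additive error

Two statements.

1. (Possibility for families with a bounded envelope.) For every `1 ≤ p < ∞`, `K > 0`, `ε > 0`,
   every measure space and every `x_1, …, x_n ∈ L_p(μ)` with `‖max_i |x_i|‖_{L_p(μ)} ≤ K` there
   are `d ≤ 112 (2K)^(2p) log n / ε^2` and `y_1, …, y_n ∈ ℓ_p^d` with
   `| ‖y_i - y_j‖_p^p - ‖x_i - x_j‖_p^p | ≤ ε` for all `i, j`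
   (proof in `Vale/Agent/H67/Additive.lean`).

2. (Impossibility for linear maps on the unit ball, `p ≠ 2`.) For `N = 2^k` there is a set `S`
   of at most `2N + 1` points of the unit ball of `ℓ_p^N` (the origin, the unit vectors and the
   normalised rows of the Walsh matrix) such that every linear map `T : ℓ_p^N → ℓ_p^d` with
   `| ‖Tx - Ty‖^r - ‖x - y‖^r | ≤ ε` on `S` has `d ≥ N ((1-ε)/(1+ε))^(2p/(r|p-2|))`
   (proof in `Vale/Agent/H67/LinearLB.lean`).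
-/

namespace Vale.Agent.Results.P249.A_AdditiveAndLinear

universe u

theorem result :
    (∀ (p : ENNReal) [Fact (1 ≤ p)], p ≠ ⊤ → ∀ (K ε : ℝ), 0 < K → 0 < ε →
      ∀ (Ω : Type u) [MeasurableSpace Ω] (μ : MeasureTheory.Measure Ω) (n : ℕ)
        (x : Fin n → MeasureTheory.Lp ℝ p μ),
        (∫ ω, (⨆ i, |x i ω|) ^ p.toReal ∂μ) ≤ K ^ p.toReal →
        ∃ (d : ℕ) (y : Fin n → PiLp p (fun _ : Fin d => ℝ)),
          (d : ℝ) ≤ 112 * (2 * K) ^ (2 * p.toReal) * Real.log n / ε ^ 2 ∧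
          ∀ i j, |‖y i - y j‖ ^ p.toReal - ‖x i - x j‖ ^ p.toReal| ≤ ε) ∧
    (∀ (p : ENNReal) [Fact (1 ≤ p)], p ≠ ⊤ → p ≠ 2 → ∀ (k : ℕ),
      ∃ S : Finset (PiLp p (fun _ : Fin (2 ^ k) => ℝ)),
        S.card ≤ 2 * 2 ^ k + 1 ∧ (∀ x ∈ S, ‖x‖ ≤ 1) ∧
        ∀ (r : ℝ), 0 < r → ∀ (ε : ℝ), 0 < ε → ε < 1 → ∀ (d : ℕ)
          (T : PiLp p (fun _ : Fin (2 ^ k) => ℝ) →ₗ[ℝ] PiLp p (fun _ : Fin d => ℝ)),
          (∀ x ∈ S, ∀ y ∈ S, |‖T x - T y‖ ^ r - ‖x - y‖ ^ r| ≤ ε) →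
          (2 : ℝ) ^ k * ((1 - ε) / (1 + ε)) ^ (2 * p.toReal / (r * |p.toReal - 2|)) ≤ d) :=
  ⟨fun p _ hp K ε hK hε _ _ μ n x hx => Vale.Agent.H67.additive_jl p hp K ε hK hε μ n x hx,
   fun p _ hp hp2 k => Vale.Agent.H67.linear_lb p hp hp2 k⟩

end Vale.Agent.Results.P249.A_AdditiveAndLinear
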