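import Mathlib
import Vale.Agent.H67.Additive

/-!
# P249: additive-error dimension reduction in `L_p` for families with a bounded envelope

For every `1 ≤ p < ∞`, `K > 0`, `ε > 0`, every measure space and every `x_1, …, x_n ∈ L_p(μ)`
with `‖max_i |x_i|‖_{L_p(μ)} ≤ K` there are `d ≤ 112 (2K)^(2p) log n / ε^2` and
`y_1, …, y_n ∈ ℓ_p^d` with `| ‖y_i - y_j‖_p^p - ‖x_i - x_j‖_p^p | ≤ ε` for all `i, j`.

Proof (see `Vale/Agent/H67/Additive.lean`): sample coordinates from the density proportional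
to `(max_i |x_i|)^p` (change of measure) and apply the derandomized multiplicative Chernoff
bound of `Vale/Agent/H67/Sampling.lean` to shifted functions.
-/

namespace Vale.Agent.Results.P249.A_AdditiveJL

universe u

theorem result : ∀ (p : ENNReal) [Fact (1 ≤ p)], p ≠ ⊤ → ∀ (K ε : ℝ), 0 < K → 0 < ε →
    ∀ (Ω : Type u) [MeasurableSpace Ω] (μ : MeasureTheory.Measure Ω) (n : ℕ)
      (x : Fin n → MeasureTheory.Lp ℝ p μ),
      (∫ ω, (⨆ i, |x i ω|) ^ p.toReal ∂μ) ≤ K ^ p.toReal →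
      ∃ (d : ℕ) (y : Fin n → PiLp p (fun _ : Fin d => ℝ)),
        (d : ℝ) ≤ 112 * (2 * K) ^ (2 * p.toReal) * Real.log n / ε ^ 2 ∧
        ∀ i j, |‖y i - y j‖ ^ p.toReal - ‖x i - x j‖ ^ p.toReal| ≤ ε :=
  fun p _ hp K ε hK hε _ _ μ n x hx => Vale.Agent.H67.additive_jl p hp K ε hK hε μ n x hx

end Vale.Agent.Results.P249.A_AdditiveJL
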