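import Mathlib
import Vale.Agent.H67.Explicit

/-!
# P249: dimension reduction in `L_p` with `10^4 * 1600^p * n * log n / ε^2` coordinates

For every `1 ≤ p < ∞`, every `0 < ε ≤ 1` and every finite subset `X` with `n` points of every
`L_p(μ)` (arbitrary measure space) there is a map into `ℓ_p^d` with
`d ≤ 10000 * 1600 ^ p * n * log n / ε ^ 2` and distortion at most `1 + ε` in the sense of
the problem.

Proof (see `Vale/Agent/H51/P249`, `Vale/Agent/H5`, `Vale/Agent/H73`, `Vale/Agent/H67`):
every finite metric space has a weighted dominating edge list of linear cost (nested nets and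
a hub recursion); this bounds the total sensitivity of the coordinates with respect to the
pairwise differences of `X` linearly in `n`; importance sampling of coordinates with a
derandomized Chernoff bound gives the embedding.
-/

namespace Vale.Agent.Results.P249.A_ExplicitNLogN

universe u

theorem result : ∀ (p : ENNReal) [Fact (1 ≤ p)], p ≠ ⊤ → ∀ (ε : ℝ), 0 < ε → ε ≤ 1 →
    ∀ (Ω : Type u) [MeasurableSpace Ω] (μ : MeasureTheory.Measure Ω)
      (X : Finset (MeasureTheory.Lp ℝ p μ)),
      ∃ (d : ℕ) (f : MeasureTheory.Lp ℝ p μ → PiLp p (fun _ : Fin d => ℝ)) (s : ℝ),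
        (d : ℝ) ≤ 10000 * (1600 : ℝ) ^ p.toReal * (X.card : ℝ) * Real.log (X.card : ℝ) / ε ^ 2 ∧
        0 < s ∧
        ∀ x ∈ X, ∀ y ∈ X, s * ‖x - y‖ ≤ ‖f x - f y‖ ∧ ‖f x - f y‖ ≤ (1 + ε) * s * ‖x - y‖ :=
  fun p _ hp ε hε hε1 _ _ μ X => Vale.Agent.H67.explicit_nlogn p hp ε hε hε1 μ X

end Vale.Agent.Results.P249.A_ExplicitNLogN
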