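import Mathlib
import Vale.Agent.H51.P249.NLogN

/-!
# P249: dimension reduction in `L_p` with `C n log n` coordinates

For every `1 ≤ p < ∞` and every `D > 1` there is a constant `C` (depending only on `p`
and `D`) such that every finite subset `X` with `n` points of every `L_p(μ)`
(arbitrary measure space) admits a map into `ℓ_p^d` with `d ≤ C n log n` and
distortion at most `D` in the sense of the problem.
-/

namespace Vale.Agent.Results.P249.A_NLogN

universe u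

theorem result : ∀ (p : ENNReal) [Fact (1 ≤ p)], p ≠ ⊤ → ∀ (D : ℝ), 1 < D →
    ∃ C : ℝ, ∀ (Ω : Type u) [MeasurableSpace Ω] (μ : MeasureTheory.Measure Ω)
      (X : Finset (MeasureTheory.Lp ℝ p μ)),
      ∃ (d : ℕ) (f : MeasureTheory.Lp ℝ p μ → PiLp p (fun _ : Fin d => ℝ)) (s : ℝ),
        (d : ℝ) ≤ C * (X.card : ℝ) * Real.log (X.card : ℝ) ∧ 0 < s ∧
        ∀ x ∈ X, ∀ y ∈ X, s * ‖x - y‖ ≤ ‖f x - f y‖ ∧ ‖f x - f y‖ ≤ D * s * ‖x - y‖ := by
  intro p _ hp D hD
  obtain ⟨C, hC⟩ := Vale.Agent.H51.P249.dimension_reduction_nlogn p hp D hD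
  refine ⟨C, fun Ω _ μ X => ?_⟩
  obtain ⟨d, hd, f, s, hs, hf⟩ := hC μ X
  exact ⟨d, f, s, hd, hs, hf⟩

end Vale.Agent.Results.P249.A_NLogN
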